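import Mathlib

/-! Vocabulary for the statement about finitely presented simple groups. -/

namespace Vale.Agent.P193

/-- A finite presentation code: a number `n` of generators and a list of relator words.
Letters with index at least `n` are ignored. -/
abbrev Code : Type := ℕ × List (List (ℕ × Bool))

/-- Keep a letter if its index is in range. -/
def restrict (n : ℕ) (a : ℕ × Bool) : Option (Fin n × Bool) :=
  if h : a.1 < n then some (⟨a.1, h⟩, a.2) else none

/-- The relators of a code. -/
def relators (p : Code) : Set (FreeGroup (Fin p.1)) :=
  {x | ∃ r ∈ p.2, x = FreeGroup.mk (r.filterMap (restrict p.1))}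

/-- The finitely presented group of a code. -/
abbrev CodeGroup (p : Code) : Type := PresentedGroup (relators p)

/-- Arithmetical class Sigma-zero-two: a set of codes definable as `∃ k, ∀ m, R`, with `R` computable. -/
def IsSigma2 (P : Set Code) : Prop :=
  ∃ R : Code → ℕ → ℕ → Bool, Computable (fun x : Code × ℕ × ℕ => R x.1 x.2.1 x.2.2) ∧
    ∀ p, p ∈ P ↔ ∃ k, ∀ m, R p k m = true

/-- A group generated by finitely many elements for which triviality of words is computable. -/
def HasDecidableWP (G : Type) [Group G] : Prop :=
  ∃ (n : ℕ) (g : Fin n → G), Subgroup.closure (Set.range g) = ⊤ ∧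
    ∃ d : List (Fin n × Bool) → Bool, Computable d ∧
      ∀ w, d w = true ↔ FreeGroup.lift g (FreeGroup.mk w) = 1

end Vale.Agent.P193
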