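import Vale.Agent.P193.Defs

/-! Certificates for membership in the kernel of a finite presentation. -/

namespace Vale.Agent.P193

/-- Words over the natural numbers. -/
abbrev Word : Type := List (ℕ × Bool)

/-- The evaluation map of a code on generators indexed by naturals. -/
def proj (p : Code) : FreeGroup ℕ →* CodeGroup p :=
  FreeGroup.lift fun i => if h : i < p.1 then PresentedGroup.of ⟨i, h⟩ else 1

/-- Relator words over the naturals, indexed by naturals: the listed ones, then generators out of range. -/
def baseWord (n : ℕ) (rs : List Word) (i : ℕ) : Word :=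
  bif decide (i < rs.length) then rs.getD i [] else [(n + (i - rs.length), true)]

/-- The normal closure of the base words. -/
def baseClosure (n : ℕ) (rs : List Word) : Subgroup (FreeGroup ℕ) :=
  Subgroup.normalClosure (Set.range fun i => FreeGroup.mk (baseWord n rs i))

instance baseClosure_normal (n : ℕ) (rs : List Word) : (baseClosure n rs).Normal :=
  Subgroup.normalClosure_normal

theorem proj_of (p : Code) (i : ℕ) :
    proj p (FreeGroup.of i) = if h : i < p.1 then PresentedGroup.of ⟨i, h⟩ else 1 := by
  simp [proj]

theorem proj_mk (p : Code) (r : Word) :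
    proj p (FreeGroup.mk r) =
      PresentedGroup.mk (relators p) (FreeGroup.mk (r.filterMap (restrict p.1))) := by
  induction r with
  | nil => rw [List.filterMap_nil, ← FreeGroup.one_eq_mk, ← FreeGroup.one_eq_mk, map_one, map_one]
  | cons a r ih =>
    have e : FreeGroup.mk (a :: r) = FreeGroup.mk [a] * FreeGroup.mk r := by
      rw [FreeGroup.mul_mk, List.singleton_append]
    rw [e, map_mul, ih, List.filterMap_cons]
    obtain ⟨i, b⟩ := a
    by_cases h : i < p.1
    · simp only [restrict, dif_pos h]
      rw [show FreeGroup.mk ((((⟨i, h⟩ : Fin p.1), b)) :: r.filterMap (restrict p.1)) =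
          FreeGroup.mk [((⟨i, h⟩ : Fin p.1), b)] * FreeGroup.mk (r.filterMap (restrict p.1)) by
        rw [FreeGroup.mul_mk, List.singleton_append], map_mul]
      refine congrArg (· * _) ?_
      cases b
      · rw [show FreeGroup.mk [((⟨i, h⟩ : Fin p.1), false)]
          = (FreeGroup.of (⟨i, h⟩ : Fin p.1))⁻¹ from rfl, map_inv,
          show FreeGroup.mk [(i, false)] = (FreeGroup.of i)⁻¹ from rfl, map_inv, proj_of, dif_pos h]
        rfl
      · rw [show FreeGroup.mk [(i, true)] = FreeGroup.of i from rfl, proj_of, dif_pos h]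
        rfl
    · simp only [restrict, dif_neg h]
      cases b <;> simp [proj, FreeGroup.lift_mk, h]

theorem proj_surjective (p : Code) : Function.Surjective (proj p) := by
  intro x
  induction x using PresentedGroup.induction_on with
  | _ z =>
    refine ⟨FreeGroup.map Fin.val z, ?_⟩
    have : (proj p).comp (FreeGroup.map Fin.val) = PresentedGroup.mk (relators p) :=
      FreeGroup.ext_hom _ _ fun i => by simp [proj]; rfl
    exact DFunLike.congr_fun this z

theorem mem_baseClosure_oor (n : ℕ) (rs : List Word) (i : ℕ) (hi : n ≤ i) :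
    FreeGroup.of i ∈ baseClosure n rs := by
  refine Subgroup.subset_normalClosure ⟨rs.length + (i - n), ?_⟩
  show FreeGroup.mk _ = _
  simp [baseWord, Nat.add_sub_cancel' hi]
  rfl

theorem mem_baseClosure_mem (n : ℕ) (rs : List Word) (r : Word) (hr : r ∈ rs) :
    FreeGroup.mk r ∈ baseClosure n rs := by
  obtain ⟨i, hi, rfl⟩ := List.getElem_of_mem hr
  exact Subgroup.subset_normalClosure ⟨i, by simp [baseWord, hi, List.getD_eq_getElem _ _ hi]⟩

theorem baseClosure_mono_append (n : ℕ) (rs ts : List Word) :
    baseClosure n rs ≤ baseClosure n (rs ++ ts) := by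
  refine Subgroup.normalClosure_le_normal ?_
  rintro _ ⟨i, rfl⟩
  simp only [SetLike.mem_coe]
  by_cases h : i < rs.length
  · simp only [baseWord, h, decide_true, cond_true, List.getD_eq_getElem _ _ h]
    exact mem_baseClosure_mem _ _ _ (List.mem_append_left _ (List.getElem_mem h))
  · simp only [baseWord, h, decide_false, cond_false]
    exact mem_baseClosure_oor _ _ _ (Nat.le_add_right _ _)

theorem baseClosure_le_iff (n : ℕ) (rs : List Word) (N : Subgroup (FreeGroup ℕ)) [N.Normal] :
    baseClosure n rs ≤ N ↔
      (∀ r ∈ rs, FreeGroup.mk r ∈ N) ∧ ∀ i, n ≤ i → FreeGroup.of i ∈ N := by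
  refine ⟨fun h => ⟨fun r hr => h (mem_baseClosure_mem n rs r hr),
    fun i hi => h (mem_baseClosure_oor n rs i hi)⟩, fun h => ?_⟩
  refine Subgroup.normalClosure_le_normal ?_
  rintro _ ⟨i, rfl⟩
  simp only [SetLike.mem_coe]
  by_cases hi : i < rs.length
  · simp only [baseWord, hi, decide_true, cond_true, List.getD_eq_getElem _ _ hi]
    exact h.1 _ (List.getElem_mem hi)
  · simp only [baseWord, hi, decide_false, cond_false]
    exact h.2 _ (Nat.le_add_right _ _)

theorem ker_proj (p : Code) : (proj p).ker = baseClosure p.1 p.2 := by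
  apply le_antisymm
  · let q : FreeGroup ℕ →* FreeGroup ℕ ⧸ baseClosure p.1 p.2 := QuotientGroup.mk' _
    have hnil : ∀ i : ℕ, p.1 ≤ i → q (FreeGroup.of i) = 1 := fun i hi =>
      (QuotientGroup.eq_one_iff _).2 (mem_baseClosure_oor _ _ i hi)
    have key : ∀ r : Word, FreeGroup.lift (fun j : Fin p.1 => q (FreeGroup.of (j : ℕ)))
        (FreeGroup.mk (r.filterMap (restrict p.1))) = q (FreeGroup.mk r) := by
      intro r
      induction r with
      | nil => rw [List.filterMap_nil, ← FreeGroup.one_eq_mk, ← FreeGroup.one_eq_mk, map_one,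
          map_one]
      | cons a r ih =>
        obtain ⟨i, b⟩ := a
        rw [show FreeGroup.mk ((i, b) :: r) = FreeGroup.mk [(i, b)] * FreeGroup.mk r by
          rw [FreeGroup.mul_mk, List.singleton_append], map_mul, ← ih, List.filterMap_cons]
        by_cases h : i < p.1
        · simp only [restrict, dif_pos h]
          rw [← List.singleton_append, ← FreeGroup.mul_mk, map_mul]
          congr 1
          cases b
          · rw [show FreeGroup.mk [(i, false)] = (FreeGroup.of i)⁻¹ from rfl, map_inv,
              show FreeGroup.mk [((⟨i, h⟩ : Fin p.1), false)]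
                = (FreeGroup.of (⟨i, h⟩ : Fin p.1))⁻¹ from rfl, map_inv]
            simp
          · rw [show FreeGroup.mk [(i, true)] = FreeGroup.of i from rfl,
              show FreeGroup.mk [((⟨i, h⟩ : Fin p.1), true)]
                = FreeGroup.of (⟨i, h⟩ : Fin p.1) from rfl]
            simp
        · simp only [restrict, dif_neg h]
          cases b
          · rw [show FreeGroup.mk [(i, false)] = (FreeGroup.of i)⁻¹ from rfl, map_inv,
              hnil i (not_lt.1 h)]
            simp
          · rw [show FreeGroup.mk [(i, true)] = FreeGroup.of i from rfl, hnil i (not_lt.1 h)]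
            simp
    have hs : ∀ x ∈ relators p,
        FreeGroup.lift (fun j : Fin p.1 => q (FreeGroup.of (j : ℕ))) x = 1 := by
      rintro _ ⟨r, hr, rfl⟩
      rw [key]
      exact (QuotientGroup.eq_one_iff _).2 (mem_baseClosure_mem _ _ r hr)
    have comp : (PresentedGroup.toGroup hs).comp (proj p) = q := by
      refine FreeGroup.ext_hom _ _ fun i => ?_
      rw [MonoidHom.comp_apply, proj_of]
      by_cases h : i < p.1
      · rw [dif_pos h, PresentedGroup.toGroup.of]
      · rw [dif_neg h, map_one, hnil i (not_lt.1 h)]
    intro x hx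
    have hx' : q x = 1 := by
      rw [← comp, MonoidHom.comp_apply, MonoidHom.mem_ker.1 hx, map_one]
    exact (QuotientGroup.eq_one_iff _).1 hx'
  · rw [baseClosure_le_iff]
    refine ⟨fun r hr => ?_, fun i hi => ?_⟩
    · rw [MonoidHom.mem_ker, proj_mk]
      exact PresentedGroup.one_of_mem ⟨r, hr, rfl⟩
    · rw [MonoidHom.mem_ker, proj_of, dif_neg (not_lt.2 hi)]

/-! ### Certificates -/

/-- A certificate item: conjugating word, sign and index of a base word. -/
abbrev Cert : Type := List (Word × Bool × ℕ)

/-- The word of a certificate. -/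
def certWord (n : ℕ) (rs : List Word) (c : Cert) : Word :=
  c.flatMap fun t => t.1 ++ ((bif t.2.1 then baseWord n rs t.2.2
    else FreeGroup.invRev (baseWord n rs t.2.2)) ++ FreeGroup.invRev t.1)

/-- Certificate check. -/
def checkCert (n : ℕ) (rs : List Word) (c : Cert) (v : Word) : Bool :=
  decide (FreeGroup.reduce (certWord n rs c) = FreeGroup.reduce v)

theorem checkCert_iff (n : ℕ) (rs : List Word) (c : Cert) (v : Word) :
    checkCert n rs c v = true ↔ FreeGroup.mk (certWord n rs c) = FreeGroup.mk v := by
  rw [checkCert, decide_eq_true_iff]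
  exact ⟨FreeGroup.reduce.exact, FreeGroup.reduce.sound⟩

theorem certWord_mem (n : ℕ) (rs : List Word) (c : Cert) :
    FreeGroup.mk (certWord n rs c) ∈ baseClosure n rs := by
  induction c with
  | nil => exact one_mem _
  | cons t c ih =>
    have e : certWord n rs (t :: c) = (t.1 ++ ((bif t.2.1 then baseWord n rs t.2.2
      else FreeGroup.invRev (baseWord n rs t.2.2)) ++ FreeGroup.invRev t.1)) ++
        certWord n rs c := by simp [certWord]
    rw [e, ← FreeGroup.mul_mk]
    refine mul_mem ?_ ih
    rw [← FreeGroup.mul_mk, ← FreeGroup.mul_mk, ← FreeGroup.inv_mk, ← mul_assoc]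
    refine (baseClosure_normal n rs).conj_mem _ ?_ _
    have : FreeGroup.mk (baseWord n rs t.2.2) ∈ baseClosure n rs :=
      Subgroup.subset_normalClosure ⟨_, rfl⟩
    cases t.2.1
    · rw [cond_false, ← FreeGroup.inv_mk]; exact inv_mem this
    · exact this

theorem exists_cert (n : ℕ) (rs : List Word) {x : FreeGroup ℕ} (hx : x ∈ baseClosure n rs) :
    ∃ c, FreeGroup.mk (certWord n rs c) = x := by
  induction hx using Subgroup.closure_induction with
  | mem y hy =>
    obtain ⟨a, ⟨i, rfl⟩, hc⟩ := Group.mem_conjugatesOfSet_iff.1 hy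
    obtain ⟨g, rfl⟩ := isConj_iff.1 hc
    refine ⟨[(g.toWord, true, i)], ?_⟩
    simp only [certWord, List.flatMap_cons, List.flatMap_nil, List.append_nil, cond_true]
    rw [← FreeGroup.mul_mk, ← FreeGroup.mul_mk, ← FreeGroup.inv_mk, FreeGroup.mk_toWord,
      mul_assoc]
  | one => exact ⟨[], rfl⟩
  | mul y z _ _ hy hz =>
    obtain ⟨c, rfl⟩ := hy
    obtain ⟨d, rfl⟩ := hz
    exact ⟨c ++ d, by rw [certWord, List.flatMap_append, ← FreeGroup.mul_mk]; rfl⟩
  | inv y _ hy =>
    obtain ⟨c, rfl⟩ := hy
    clear * -
    induction c with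
    | nil => exact ⟨[], by simp [certWord, ← FreeGroup.one_eq_mk]⟩
    | cons t c ih =>
      obtain ⟨d, hd⟩ := ih
      refine ⟨d ++ [(t.1, !t.2.1, t.2.2)], ?_⟩
      simp only [certWord, List.flatMap_append, List.flatMap_cons, List.flatMap_nil,
        List.append_nil] at hd ⊢
      simp only [← FreeGroup.mul_mk, hd, ← FreeGroup.inv_mk, mul_inv_rev, inv_inv]
      cases t.2.1 <;>
        simp [← FreeGroup.mul_mk, ← FreeGroup.inv_mk, mul_inv_rev, mul_assoc]

theorem exists_checkCert_iff (n : ℕ) (rs : List Word) (v : Word) :
    (∃ c, checkCert n rs c v = true) ↔ FreeGroup.mk v ∈ baseClosure n rs := by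
  constructor
  · rintro ⟨c, hc⟩
    rw [← (checkCert_iff n rs c v).1 hc]
    exact certWord_mem n rs c
  · intro h
    obtain ⟨c, hc⟩ := exists_cert n rs h
    exact ⟨c, (checkCert_iff n rs c v).2 hc⟩

/-! ### Computability -/

/-- One step of reduction. -/
def redStep (a : ℕ × Bool) (r : Word) : Word :=
  List.casesOn r [a] fun b t => bif decide (a.1 = b.1) && decide (a.2 = !b.2) then t else a :: b :: t

theorem reduce_eq_foldr (w : Word) : FreeGroup.reduce w = w.foldr redStep [] := by
  induction w with
  | nil => rfl
  | cons a w ih =>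
    rw [FreeGroup.reduce.cons, List.foldr_cons, ← ih]
    cases FreeGroup.reduce w with
    | nil => rfl
    | cons b t =>
      by_cases h : a.1 = b.1 ∧ a.2 = !b.2
      · simp [redStep, h.1, h.2]
      · simp only [redStep]
        rw [if_neg h]
        have : (decide (a.1 = b.1) && decide (a.2 = !b.2)) = false := by
          simpa [Bool.eq_false_iff] using h
        rw [this, cond_false]

open Primrec in
theorem reduce_prim : Primrec (FreeGroup.reduce : Word → Word) := by
  refine (list_foldr Primrec.id (const ([] : Word)) (h := fun _ s => redStep s.1 s.2)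
    (list_casesOn (f := fun p : Word × (ℕ × Bool) × Word => p.2.2)
      (g := fun p => [p.2.1])
      (h := fun p q => bif decide (p.2.1.1 = q.1.1) && decide (p.2.1.2 = !q.1.2) then q.2
        else p.2.1 :: q.1 :: q.2)
      (snd.comp snd) (list_cons.comp (fst.comp snd) (const []))
      (cond (Primrec.and.comp
          (Primrec.eq.decide.comp (fst.comp (fst.comp (snd.comp fst))) (fst.comp (fst.comp snd)))
          (Primrec.eq.decide.comp (snd.comp (fst.comp (snd.comp fst)))
            (Primrec.not.comp (snd.comp (fst.comp snd)))))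
        (snd.comp snd)
        (list_cons.comp (fst.comp (snd.comp fst))
          (list_cons.comp (fst.comp snd) (snd.comp snd)))).to₂).to₂).of_eq
    fun w => (reduce_eq_foldr w).symm

open Primrec in
theorem invRev_prim : Primrec (FreeGroup.invRev : Word → Word) :=
  list_reverse.comp (list_map Primrec.id
    (Primrec.pair (fst.comp snd) (Primrec.not.comp (snd.comp snd))).to₂)

open Primrec in
theorem baseWord_prim : Primrec fun x : (ℕ × List Word) × ℕ => baseWord x.1.1 x.1.2 x.2 :=
  cond (Primrec.nat_lt.decide.comp snd (list_length.comp (snd.comp fst)))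
    ((list_getD []).comp (snd.comp fst) snd)
    (list_cons.comp
      (Primrec.pair (nat_add.comp (fst.comp fst)
        (nat_sub.comp snd (list_length.comp (snd.comp fst)))) (const true))
      (const []))

open Primrec in
theorem certWord_prim : Primrec fun x : (ℕ × List Word) × Cert => certWord x.1.1 x.1.2 x.2 := by
  have hb : Primrec fun y : ((ℕ × List Word) × Cert) × (Word × Bool × ℕ) =>
      baseWord y.1.1.1 y.1.1.2 y.2.2.2 :=
    baseWord_prim.comp (Primrec.pair (fst.comp fst) (snd.comp (snd.comp snd)))
  exact list_flatMap snd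
    (list_append.comp (fst.comp snd)
      (list_append.comp (cond (fst.comp (snd.comp snd)) hb (invRev_prim.comp hb))
        (invRev_prim.comp (fst.comp snd)))).to₂

open Primrec in
theorem checkCert_prim :
    Primrec fun x : ((ℕ × List Word) × Cert) × Word => checkCert x.1.1.1 x.1.1.2 x.1.2 x.2 :=
  Primrec.eq.decide.comp (reduce_prim.comp (certWord_prim.comp fst)) (reduce_prim.comp snd)

end Vale.Agent.P193
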