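import Vale.Agent.P193.Group

/-! The word problem of the groups from `Group.lean` is computable when the pattern is. -/

namespace Vale.Agent.P193

variable (B : ℕ → Bool)

/-- An integer given as a difference of naturals. -/
def pos (q : ℕ × ℕ) : ℤ := (q.1 : ℤ) - q.2

/-- Equality of differences. -/
def posEq (q r : ℕ × ℕ) : Bool := decide (q.1 + r.2 = r.1 + q.2)

theorem posEq_iff (q r : ℕ × ℕ) : posEq q r = true ↔ pos q = pos r := by
  simp [posEq, pos]; omega

/-- Effect of a letter, on naturals. -/
def stepN (a : Fin 2 × Bool) (d : List (ℕ × ℕ) × (ℕ × ℕ)) : List (ℕ × ℕ) × (ℕ × ℕ) :=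
  bif decide (a.1 = 0) then ((0, 0) :: d.1, d.2)
  else bif a.2 then (d.1.map (fun q => (q.1 + 1, q.2)), (d.2.1 + 1, d.2.2))
  else (d.1.map (fun q => (q.1, q.2 + 1)), (d.2.1, d.2.2 + 1))

/-- Data of a word, on naturals. -/
def dataN (w : List (Fin 2 × Bool)) : List (ℕ × ℕ) × (ℕ × ℕ) := w.foldr stepN ([], (0, 0))

theorem dataZ_eq (w : List (Fin 2 × Bool)) :
    dataZ w = ((dataN w).1.map pos, pos (dataN w).2) := by
  induction w with
  | nil => rfl
  | cons a w ih =>
    show stepZ a (dataZ w) = ((stepN a (dataN w)).1.map pos, pos (stepN a (dataN w)).2)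
    rw [ih]
    obtain ⟨j, b⟩ := a
    by_cases hj : j = 0
    · simp [stepZ, stepN, hj, pos]
    · cases b <;> simp [stepZ, stepN, hj, pos, List.map_map, Function.comp_def] <;>
        refine ⟨fun _ _ _ => ?_, ?_⟩ <;> ring

/-- Parity of the number of entries with a given value. -/
def countPar (L : List (ℕ × ℕ)) (r : ℕ × ℕ) : Bool :=
  L.foldr (fun q b => xor (posEq q r) b) false

theorem countPar_spec (L : List (ℕ × ℕ)) (r : ℕ × ℕ) :
    ((L.map pos).count (pos r) : ZMod 2) = if countPar L r then 1 else 0 := by
  induction L with
  | nil => simp [countPar]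
  | cons q L ih =>
    have e : countPar (q :: L) r = xor (posEq q r) (countPar L r) := rfl
    rw [List.map_cons, List.count_cons, Nat.cast_add, ih, e]
    by_cases h : pos q = pos r
    · rw [(posEq_iff q r).2 h]
      cases countPar L r <;> simp [h, CharTwo.add_self_eq_zero]
    · have : posEq q r = false := by
        rw [Bool.eq_false_iff, ne_eq, posEq_iff]; exact h
      rw [this]
      cases countPar L r <;> simp [h]

/-- State for computing `pairs`. -/
def pairsState (n : ℕ) (L : List (ℕ × ℕ)) : List (ℕ × ℕ) × Bool :=
  L.foldr (fun p s => (p :: s.1, xor (countPar s.1 (p.1, p.2 + n)) s.2)) ([], false)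

theorem pairsState_fst (n : ℕ) (L : List (ℕ × ℕ)) : (pairsState n L).1 = L := by
  induction L with
  | nil => rfl
  | cons p L ih => exact congrArg (p :: ·) ih

theorem pairsState_spec (n : ℕ) (L : List (ℕ × ℕ)) :
    pairs (L.map pos) n = if (pairsState n L).2 then 1 else 0 := by
  induction L with
  | nil => simp [pairsState, pairs]
  | cons p L ih =>
    have e : (pairsState n (p :: L)).2 =
        xor (countPar (pairsState n L).1 (p.1, p.2 + n)) (pairsState n L).2 := rfl
    rw [e, pairsState_fst, List.map_cons, pairs, ih,
      show pos p - (n : ℤ) = pos (p.1, p.2 + n) by simp [pos]; ring, countPar_spec]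
    cases countPar L (p.1, p.2 + n) <;> cases (pairsState n L).2 <;>
      simp [CharTwo.add_self_eq_zero]

/-- All values at which `pairs` can be nonzero. -/
def cands (L : List (ℕ × ℕ)) : List ℕ :=
  L.flatMap fun p => L.map fun q => (p.1 + q.2) - (q.1 + p.2)

theorem exists_of_pairs : ∀ (L : List ℤ) (n : ℤ), pairs L n ≠ 0 → ∃ p ∈ L, ∃ q ∈ L, p - q = n
  | [], _, h => absurd rfl h
  | p :: L, n, h => by
    by_cases hc : L.count (p - n) = 0
    · have h' : pairs L n ≠ 0 := by simpa [pairs, hc] using h
      obtain ⟨a, ha, b, hb, hab⟩ := exists_of_pairs L n h'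
      exact ⟨a, List.mem_cons_of_mem _ ha, b, List.mem_cons_of_mem _ hb, hab⟩
    · exact ⟨p, List.mem_cons_self, p - n,
        List.mem_cons_of_mem _ (List.count_pos_iff.1 (Nat.pos_of_ne_zero hc)), by ring⟩

/-- Boolean universal quantifier over a list, by recursion on the index. -/
def allUpTo (f : ℕ → Bool) (n : ℕ) : Bool := Nat.rec true (fun i acc => acc && f i) n

theorem allUpTo_iff (f : ℕ → Bool) (n : ℕ) : allUpTo f n = true ↔ ∀ i < n, f i = true := by
  induction n with
  | zero => simp [allUpTo]
  | succ n ih =>
    show (allUpTo f n && f n) = true ↔ _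
    rw [Bool.and_eq_true, ih, Nat.forall_lt_succ_right]

/-- Decision procedure. -/
def decideWord (w : List (Fin 2 × Bool)) : Bool :=
  posEq (dataN w).2 (0, 0) &&
  ((dataN w).1.foldr (fun q b => !countPar (dataN w).1 q && b) true &&
    allUpTo (fun i => !(mask B ((cands (dataN w).1).getD i 0) &&
      (pairsState ((cands (dataN w).1).getD i 0) (dataN w).1).2))
      (cands (dataN w).1).length)

theorem decideWord_iff (w : List (Fin 2 × Bool)) :
    decideWord B w = true ↔ FreeGroup.lift (gen B) (FreeGroup.mk w) = 1 := by
  rw [lift_eq_one_iff, dataZ_eq]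
  set L := (dataN w).1 with hL
  set k := (dataN w).2
  have hf : ∀ M : List (ℕ × ℕ), M.foldr (fun q b => !countPar L q && b) true = true ↔
      ∀ q ∈ M, countPar L q = false := by
    intro M
    induction M with
    | nil => simp
    | cons q M ih => simp [ih]
  simp only [decideWord, ← hL, Bool.and_eq_true, posEq_iff, hf, allUpTo_iff]
  refine and_congr (by simp [pos, k]) (and_congr ?_ ?_)
  · constructor
    · intro h i
      by_cases hi : i ∈ L.map pos
      · obtain ⟨q, hq, rfl⟩ := List.mem_map.1 hi
        rw [countPar_spec, h q hq]; simp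
      · rw [List.count_eq_zero.2 hi, Nat.cast_zero]
    · intro h q _
      have := h (pos q)
      rw [countPar_spec] at this
      cases hc : countPar L q
      · rfl
      · simp [hc] at this
  · constructor
    · intro h n hn
      by_contra hne
      obtain ⟨a, ha, b, hb, hab⟩ := exists_of_pairs _ _ hne
      obtain ⟨p, hp, rfl⟩ := List.mem_map.1 ha
      obtain ⟨q, hq, rfl⟩ := List.mem_map.1 hb
      have hmem : n ∈ cands L := List.mem_flatMap.2
        ⟨p, hp, List.mem_map.2 ⟨q, hq, by simp only [pos] at hab; omega⟩⟩
      obtain ⟨i, hi, rfl⟩ := List.getElem_of_mem hmem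
      have := h i hi
      rw [List.getD_eq_getElem _ _ hi] at this
      rw [pairsState_spec] at hne
      simp [hn] at this
      simp [this] at hne
    · intro h i _
      cases hm : mask B ((cands L).getD i 0)
      · simp
      · have := h _ hm
        rw [pairsState_spec] at this
        cases hc : (pairsState ((cands L).getD i 0) L).2
        · rfl
        · rw [hc] at this
          simp at this

/-! ### Computability -/

open Primrec in
theorem posEq_prim : Primrec₂ posEq :=
  (Primrec.eq.decide.comp
    (nat_add.comp (fst.comp Primrec.fst) (snd.comp Primrec.snd))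
    (nat_add.comp (fst.comp Primrec.snd) (snd.comp Primrec.fst))).of_eq fun _ => rfl

open Primrec in
theorem stepN_prim : Primrec₂ stepN := by
  refine (cond (c := fun p : (Fin 2 × Bool) × (List (ℕ × ℕ) × (ℕ × ℕ)) => decide (p.1.1 = 0))
    (Primrec.eq.decide.comp (fst.comp fst) (const 0))
    (Primrec.pair (list_cons.comp (const (0, 0)) (fst.comp snd)) (snd.comp snd))
    (cond (snd.comp fst)
      (Primrec.pair
        (list_map (fst.comp snd)
          (Primrec.pair (succ.comp (fst.comp snd)) (snd.comp snd)).to₂)
        (Primrec.pair (succ.comp (fst.comp (snd.comp snd))) (snd.comp (snd.comp snd))))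
      (Primrec.pair
        (list_map (fst.comp snd)
          (Primrec.pair (fst.comp snd) (succ.comp (snd.comp snd))).to₂)
        (Primrec.pair (fst.comp (snd.comp snd)) (succ.comp (snd.comp (snd.comp snd))))))).of_eq
    fun _ => rfl

open Primrec in
theorem dataN_prim : Primrec dataN :=
  list_foldr Primrec.id (const ([], (0, 0)))
    (stepN_prim.comp (fst.comp snd) (snd.comp snd)).to₂

open Primrec in
theorem countPar_prim : Primrec₂ countPar :=
  list_foldr fst (const false)
    ((dom_bool₂ xor).comp (posEq_prim.comp (fst.comp snd) (snd.comp fst)) (snd.comp snd)).to₂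

open Primrec in
theorem pairsState_prim : Primrec₂ pairsState :=
  list_foldr snd (const ([], false))
    (Primrec.pair (list_cons.comp (fst.comp snd) (fst.comp (snd.comp snd)))
      ((dom_bool₂ xor).comp
        (countPar_prim.comp (fst.comp (snd.comp snd))
          (Primrec.pair (fst.comp (fst.comp snd))
            (nat_add.comp (snd.comp (fst.comp snd)) (fst.comp fst))))
        (snd.comp (snd.comp snd)))).to₂

open Primrec in
theorem cands_prim : Primrec cands :=
  list_flatMap Primrec.id
    (list_map fst
      (nat_sub.comp (nat_add.comp (fst.comp (snd.comp fst)) (snd.comp snd))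
        (nat_add.comp (fst.comp snd) (snd.comp (snd.comp fst)))).to₂).to₂

open Primrec in
theorem evenAll_prim :
    Primrec fun w => (dataN w).1.foldr (fun q b => !countPar (dataN w).1 q && b) true :=
  list_foldr (fst.comp dataN_prim) (const true)
    (Primrec.and.comp
      (Primrec.not.comp (countPar_prim.comp (fst.comp (dataN_prim.comp fst)) (fst.comp snd)))
      (snd.comp snd)).to₂

theorem mask_computable (hB : Computable B) : Computable (mask B) :=
  Primrec.and.to_comp.comp
    (Primrec.nat_lt.decide.comp (Primrec.const 0) Primrec.id).to_comp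
    (hB.comp (Primrec.nat_sub.comp Primrec.id (Primrec.const 1)).to_comp)

open Computable in
theorem decideWord_computable (hB : Computable B) : Computable (decideWord B) := by
  have hc : Computable fun w : List (Fin 2 × Bool) => cands (dataN w).1 :=
    (cands_prim.comp (Primrec.fst.comp dataN_prim)).to_comp
  have hn : Computable fun p : List (Fin 2 × Bool) × (ℕ × Bool) =>
      (cands (dataN p.1).1).getD p.2.1 0 :=
    (Primrec.list_getD 0).to_comp.comp (hc.comp Computable.fst) (fst.comp snd)
  have hall : Computable fun w : List (Fin 2 × Bool) =>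
      allUpTo (fun i => !(mask B ((cands (dataN w).1).getD i 0) &&
        (pairsState ((cands (dataN w).1).getD i 0) (dataN w).1).2))
        (cands (dataN w).1).length :=
    Computable.nat_rec (Computable.list_length.comp hc) (Computable.const true)
      (Primrec.and.to_comp.comp (snd.comp snd)
        (Primrec.not.to_comp.comp (Primrec.and.to_comp.comp
          ((mask_computable B hB).comp hn)
          (snd.comp (pairsState_prim.to_comp.comp hn
            ((Primrec.fst.comp dataN_prim).to_comp.comp Computable.fst)))))).to₂
  exact Primrec.and.to_comp.comp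
    (posEq_prim.comp (Primrec.snd.comp dataN_prim) (Primrec.const (0, 0))).to_comp
    (Primrec.and.to_comp.comp evenAll_prim.to_comp hall)

end Vale.Agent.P193
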