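import Vale.Agent.P193.Certificates
import Vale.Agent.P193.WordProblem

/-! Diagonalisation against a Sigma-zero-two family of simple finitely presented groups. -/

namespace Vale.Agent.P193

/-- An index: code, witness, images of the two generators. -/
abbrev Idx : Type := Code × ℕ × Word × Word

/-- A search stage: certificate, certificates for generators, refutation argument. -/
abbrev Stage : Type := Cert × List Cert × ℕ

/-- Substitute words for the two generators. -/
def subst (u v : Word) (w : List (Fin 2 × Bool)) : Word :=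
  w.flatMap fun a => bif decide (a.1 = 0) then (bif a.2 then u else FreeGroup.invRev u)
    else (bif a.2 then v else FreeGroup.invRev v)

theorem mk_subst (u v : Word) (w : List (Fin 2 × Bool)) :
    FreeGroup.mk (subst u v w) =
      FreeGroup.lift ![FreeGroup.mk u, FreeGroup.mk v] (FreeGroup.mk w) := by
  induction w with
  | nil => rw [← FreeGroup.one_eq_mk, map_one]; rfl
  | cons a w ih =>
    have e : FreeGroup.mk (a :: w) = FreeGroup.mk [a] * FreeGroup.mk w := by
      rw [FreeGroup.mul_mk, List.singleton_append]
    rw [e, map_mul, ← ih, subst, List.flatMap_cons, ← FreeGroup.mul_mk]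
    obtain ⟨j, b⟩ := a
    fin_cases j <;> cases b <;> simp [FreeGroup.lift_mk, ← FreeGroup.inv_mk] <;> rfl

/-- The test word number `j`, in the images given by an index. -/
def probe (j : ℕ) (x : Idx) : Word := subst x.2.2.1 x.2.2.2 (testWord (j + 1))

/-- Evidence that the probe is trivial. -/
def isTrivEv (j : ℕ) (x : Idx) (s : Stage) : Bool := checkCert x.1.1 x.1.2 s.1 (probe j x)

/-- Evidence that the probe normally generates. -/
def isGenEv (j : ℕ) (x : Idx) (s : Stage) : Bool :=
  allUpTo (fun i => checkCert x.1.1 (x.1.2 ++ [probe j x]) (s.2.1.getD i []) [(i, true)]) x.1.1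

/-- The decoded index. -/
def idx (j : ℕ) : Idx := (Encodable.decode (α := Idx) j).getD default

/-- The decoded stage. -/
def stage (s : ℕ) : Stage := (Encodable.decode (α := Stage) s).getD default

theorem idx_encode (x : Idx) : idx (Encodable.encode x) = x := by simp [idx]

theorem stage_encode (x : Stage) : stage (Encodable.encode x) = x := by simp [stage]

variable (R : Code → ℕ → ℕ → Bool)

/-- The search succeeds. -/
def found (j s : ℕ) : Bool :=
  isTrivEv j (idx j) (stage s) ||
    (isGenEv j (idx j) (stage s) || !R (idx j).1 (idx j).2.1 (stage s).2.2)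

theorem baseClosure_append_top {p : Code} (hp : IsSimpleGroup (CodeGroup p)) {w : Word}
    (hw : proj p (FreeGroup.mk w) ≠ 1) (i : ℕ) :
    FreeGroup.of i ∈ baseClosure p.1 (p.2 ++ [w]) := by
  have hn : ((baseClosure p.1 (p.2 ++ [w])).map (proj p)).Normal :=
    (baseClosure_normal _ _).map _ (proj_surjective p)
  have hmem : proj p (FreeGroup.mk w) ∈ (baseClosure p.1 (p.2 ++ [w])).map (proj p) :=
    Subgroup.mem_map_of_mem _ (mem_baseClosure_mem _ _ _ (by simp))
  rcases hp.eq_bot_or_eq_top_of_normal _ hn with h | h
  · rw [h, Subgroup.mem_bot] at hmem; exact absurd hmem hw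
  · have hi : proj p (FreeGroup.of i) ∈ (baseClosure p.1 (p.2 ++ [w])).map (proj p) := by
      rw [h]; exact Subgroup.mem_top _
    obtain ⟨y, hy, he⟩ := Subgroup.mem_map.1 hi
    have hk : y⁻¹ * FreeGroup.of i ∈ baseClosure p.1 (p.2 ++ [w]) := by
      apply baseClosure_mono_append
      rw [← ker_proj, MonoidHom.mem_ker, map_mul, map_inv, he, inv_mul_cancel]
    simpa using mul_mem hy hk

theorem found_exists
    (hR : ∀ p k, (∀ m, R p k m = true) → IsSimpleGroup (CodeGroup p)) (j : ℕ) :
    ∃ s, found R j s = true := by
  by_cases hm : ∀ m, R (idx j).1 (idx j).2.1 m = true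
  · set p := (idx j).1 with hp
    have hs := hR p (idx j).2.1 hm
    by_cases hw : proj p (FreeGroup.mk (probe j (idx j))) = 1
    · rw [← MonoidHom.mem_ker, ker_proj, ← exists_checkCert_iff] at hw
      obtain ⟨c, hc⟩ := hw
      exact ⟨Encodable.encode ((c, [], 0) : Stage),
        by rw [found, stage_encode]; simp [isTrivEv, ← hp, hc]⟩
    · have : ∀ i : Fin p.1, ∃ c,
          checkCert p.1 (p.2 ++ [probe j (idx j)]) c [((i : ℕ), true)] = true := fun i =>
        (exists_checkCert_iff _ _ _).2 (baseClosure_append_top hs hw i)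
      choose c hc using this
      have hg : isGenEv j (idx j) ([], List.ofFn c, 0) = true := by
        rw [isGenEv, allUpTo_iff]
        intro i hi
        rw [List.getD_eq_getElem _ _ (by simpa using hi)]
        simpa using hc ⟨i, hi⟩
      exact ⟨Encodable.encode (([], List.ofFn c, 0) : Stage),
        by rw [found, stage_encode]; simp [hg]⟩
  · push Not at hm
    obtain ⟨m, hm⟩ := hm
    refine ⟨Encodable.encode (([], [], m) : Stage), ?_⟩
    rw [found, stage_encode]
    simp [Bool.eq_false_iff.2 hm]

/-- The diagonal pattern: the first evidence found says that the probe is trivial. -/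
def pattern (h : ∀ j, ∃ s, found R j s = true) (j : ℕ) : Bool :=
  isTrivEv j (idx j) (stage (Nat.find (h j)))

theorem pattern_spec (h : ∀ j, ∃ s, found R j s = true) (j : ℕ)
    (hm : ∀ m, R (idx j).1 (idx j).2.1 m = true) (hs : IsSimpleGroup (CodeGroup (idx j).1)) :
    pattern R h j = true ↔ proj (idx j).1 (FreeGroup.mk (probe j (idx j))) = 1 := by
  constructor
  · intro ht
    rw [← MonoidHom.mem_ker, ker_proj, ← exists_checkCert_iff]
    exact ⟨_, ht⟩
  · intro hw
    by_contra ht
    have hf := Nat.find_spec (h j)
    change ¬ isTrivEv j (idx j) (stage (Nat.find (h j))) = true at ht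
    generalize Nat.find (h j) = s at hf ht
    simp only [found, hm, Bool.not_true, Bool.or_false, Bool.or_eq_true] at hf
    rcases hf with hf | hf
    · exact ht hf
    · rw [isGenEv, allUpTo_iff] at hf
      set p := (idx j).1 with hp
      have hle : baseClosure p.1 (p.2 ++ [probe j (idx j)]) ≤ (proj p).ker := by
        rw [baseClosure_le_iff]
        refine ⟨fun r hr => ?_, fun i hi => ?_⟩
        · rcases List.mem_append.1 hr with hr | hr
          · rw [ker_proj]; exact mem_baseClosure_mem _ _ _ hr
          · rw [List.mem_singleton.1 hr]; exact hw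
        · rw [ker_proj]; exact mem_baseClosure_oor _ _ _ hi
      have hgen : ∀ i : Fin p.1, (PresentedGroup.of i : CodeGroup p) = 1 := fun i => by
        have hi : proj p (FreeGroup.of (i : ℕ)) = 1 :=
          hle ((exists_checkCert_iff _ _ _).1 ⟨_, hf i i.2⟩)
        rwa [proj_of, dif_pos i.2] at hi
      have : (⊤ : Subgroup (CodeGroup p)) ≤ ⊥ := by
        rw [← PresentedGroup.closure_range_of, Subgroup.closure_le]
        rintro _ ⟨i, rfl⟩
        exact hgen i
      obtain ⟨a, ha⟩ := exists_ne (1 : CodeGroup p)
      exact ha (this (Subgroup.mem_top a))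

/-! ### Computability -/

open Primrec in
theorem testWord_prim : Primrec testWord := by
  have hrep : ∀ a : Fin 2 × Bool, Primrec fun n : ℕ => List.replicate n a := fun a =>
    (list_map list_range (const a).to₂).of_eq fun n => by
      simp [List.map_const']
  have hv : Primrec fun n : ℕ => List.replicate n ((1 : Fin 2), true) ++ [((0 : Fin 2), true)] ++
      List.replicate n ((1 : Fin 2), false) :=
    list_append.comp (list_append.comp (hrep _) (const _)) (hrep _)
  exact list_append.comp (list_append.comp (list_append.comp (const _) hv) (const _)) hv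

open Primrec in
theorem probe_prim : Primrec fun z : ℕ × Idx => probe z.1 z.2 := by
  have hu : Primrec fun y : (ℕ × Idx) × (Fin 2 × Bool) => y.1.2.2.2.1 :=
    fst.comp (snd.comp (snd.comp (snd.comp fst)))
  have hv : Primrec fun y : (ℕ × Idx) × (Fin 2 × Bool) => y.1.2.2.2.2 :=
    snd.comp (snd.comp (snd.comp (snd.comp fst)))
  exact list_flatMap (testWord_prim.comp (succ.comp fst))
    (cond (Primrec.eq.decide.comp (fst.comp snd) (const 0))
      (cond (snd.comp snd) hu (invRev_prim.comp hu))
      (cond (snd.comp snd) hv (invRev_prim.comp hv))).to₂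

open Primrec in
theorem isTrivEv_prim : Primrec fun z : (ℕ × Idx) × Stage => isTrivEv z.1.1 z.1.2 z.2 := by
  have ha : Primrec fun z : (ℕ × Idx) × Stage =>
      ((((z.1.2.1.1, z.1.2.1.2), z.2.1), probe z.1.1 z.1.2) :
        ((ℕ × List Word) × Cert) × Word) :=
    Primrec.pair (Primrec.pair (fst.comp (snd.comp fst)) (fst.comp snd)) (probe_prim.comp fst)
  exact (checkCert_prim.comp ha).of_eq fun _ => rfl

open Primrec in
theorem isGenEv_prim : Primrec fun z : (ℕ × Idx) × Stage => isGenEv z.1.1 z.1.2 z.2 := by
  have hp : Primrec fun y : ((ℕ × Idx) × Stage) × (ℕ × Bool) => y.1.1.2.1 :=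
    fst.comp (snd.comp (fst.comp fst))
  have ha : Primrec fun y : ((ℕ × Idx) × Stage) × (ℕ × Bool) =>
      ((((y.1.1.2.1.1, y.1.1.2.1.2 ++ [probe y.1.1.1 y.1.1.2]), y.1.2.2.1.getD y.2.1 []),
        [(y.2.1, true)]) : ((ℕ × List Word) × Cert) × Word) :=
    Primrec.pair
      (Primrec.pair
        (Primrec.pair (fst.comp hp)
          (list_append.comp (snd.comp hp)
            (list_cons.comp (probe_prim.comp (fst.comp fst)) (const []))))
        ((list_getD []).comp (fst.comp (snd.comp (snd.comp fst))) (fst.comp snd)))
      (list_cons.comp (Primrec.pair (fst.comp snd) (const true)) (const []))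
  have hc := checkCert_prim.comp ha
  have hstep := (Primrec.and.comp (snd.comp snd) hc).to₂
  have hn : Primrec fun z : (ℕ × Idx) × Stage => z.1.2.1.1 := fst.comp (fst.comp (snd.comp fst))
  exact (nat_rec' hn (const true) hstep).of_eq fun _ => rfl

theorem found_computable (hR : Computable fun x : Code × ℕ × ℕ => R x.1 x.2.1 x.2.2) :
    Computable₂ (found R) := by
  have hi : Primrec idx := Primrec.option_getD.comp Primrec.decode (Primrec.const default)
  have hs : Primrec stage := Primrec.option_getD.comp Primrec.decode (Primrec.const default)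
  have harg : Primrec fun z : ℕ × ℕ => (((z.1, idx z.1), stage z.2) : (ℕ × Idx) × Stage) :=
    (Primrec.fst.pair (hi.comp Primrec.fst)).pair (hs.comp Primrec.snd)
  have hR' : Computable fun z : ℕ × ℕ =>
      R (idx z.1).1 (idx z.1).2.1 (stage z.2).2.2 :=
    (hR.comp
      ((Primrec.fst.comp (hi.comp Primrec.fst)).pair
        ((Primrec.fst.comp (Primrec.snd.comp (hi.comp Primrec.fst))).pair
          (Primrec.snd.comp (Primrec.snd.comp (hs.comp Primrec.snd))))).to_comp).of_eq
      fun _ => rfl
  have h1 := (isTrivEv_prim.comp harg).to_comp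
  have h2 := (isGenEv_prim.comp harg).to_comp
  exact (Primrec.or.to_comp.comp h1
    (Primrec.or.to_comp.comp h2 (Primrec.not.to_comp.comp hR'))).of_eq fun _ => rfl

theorem pattern_computable (hR : Computable fun x : Code × ℕ × ℕ => R x.1 x.2.1 x.2.2)
    (h : ∀ j, ∃ s, found R j s = true) : Computable (pattern R h) := by
  have hfind : Computable fun j => Nat.find (h j) := by
    have hp : Partrec fun j => Nat.rfind fun s => Part.some (found R j s) :=
      Partrec.rfind (found_computable R hR).partrec₂
    refine hp.of_eq fun j => ?_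
    apply Part.eq_some_iff.2
    refine Nat.mem_rfind.2 ⟨by simpa using (Nat.find_spec (h j)).symm, fun {m} hm => ?_⟩
    simpa using Nat.find_min (h j) hm
  have hi : Primrec idx := Primrec.option_getD.comp Primrec.decode (Primrec.const default)
  have hs : Primrec stage := Primrec.option_getD.comp Primrec.decode (Primrec.const default)
  have ha : Computable fun j => (((j, idx j), stage (Nat.find (h j))) : (ℕ × Idx) × Stage) :=
    (Computable.id.pair hi.to_comp).pair (hs.to_comp.comp hfind)
  exact (isTrivEv_prim.to_comp.comp ha).of_eq fun _ => rfl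

theorem diagonal (P : Set Code) (hP : IsSigma2 P)
    (hS : ∀ p ∈ P, IsSimpleGroup (CodeGroup p)) :
    ∃ (G : Type) (_ : Group G), (∃ a t : G, Subgroup.closure {a, t} = ⊤) ∧
      derivedSeries G 3 = ⊥ ∧ HasDecidableWP G ∧
      ∀ p ∈ P, ∀ f : G →* CodeGroup p, ¬ Function.Injective f := by
  obtain ⟨R, hRc, hRP⟩ := hP
  have h := found_exists R fun p k hk => hS p ((hRP p).2 ⟨k, hk⟩)
  let B := pattern R h
  refine ⟨Grp B, inferInstance, ⟨gen B 0, gen B 1, ?_⟩, derived_three B,
    ⟨2, gen B, closure_gen B, decideWord B,
      decideWord_computable B (pattern_computable R hRc h), decideWord_iff B⟩, ?_⟩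
  · rw [← closure_gen B]
    congr 1
    ext g
    simp [Fin.exists_fin_two, eq_comm]
  intro p hp f hf
  obtain ⟨k, hk⟩ := (hRP p).1 hp
  obtain ⟨x, hx⟩ := proj_surjective p (f (gen B 0))
  obtain ⟨y, hy⟩ := proj_surjective p (f (gen B 1))
  set j := Encodable.encode ((p, k, x.toWord, y.toWord) : Idx) with hj
  have hji : idx j = (p, k, x.toWord, y.toWord) := idx_encode _
  have hcomp : (proj p).comp (FreeGroup.lift ![FreeGroup.mk x.toWord, FreeGroup.mk y.toWord])
      = f.comp (FreeGroup.lift (gen B)) := by
    refine FreeGroup.ext_hom _ _ fun i => ?_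
    fin_cases i <;> simp [FreeGroup.mk_toWord, hx, hy]
  have hprobe : proj p (FreeGroup.mk (probe j (idx j))) =
      f (FreeGroup.lift (gen B) (FreeGroup.mk (testWord (j + 1)))) := by
    rw [hji, probe, mk_subst]
    exact DFunLike.congr_fun hcomp _
  have hps := pattern_spec R h j (by rw [hji]; exact hk) (by rw [hji]; exact hS p hp)
  have hidx : (idx j).1 = p := by rw [hji]
  rw [← MonoidHom.mem_ker, hidx, MonoidHom.mem_ker, hprobe, map_eq_one_iff f hf,
    testWord_iff] at hps
  change B j = true ↔ B j = false at hps
  cases hb : B j <;> simp [hb] at hps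

end Vale.Agent.P193
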