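import Mathlib

/-! Two-generated solvable groups of permutations with a prescribed central pattern. -/

namespace Vale.Agent.P193

/-- The space acted on. -/
abbrev X : Type := (ℤ → ZMod 2) × (ℕ → ZMod 2)

/-- Indicator of a single integer. -/
def delta (j : ℤ) : ℤ → ZMod 2 := fun i => if i = j then 1 else 0

variable (B : ℕ → Bool)

/-- Only indices `n + 1` may be switched on. -/
def mask (n : ℕ) : Bool := decide (0 < n) && B (n - 1)

theorem mask_zero : mask B 0 = false := by simp [mask]

theorem mask_succ (n : ℕ) : mask B (n + 1) = B n := by simp [mask]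

/-- The underlying map of the first generator. -/
def alphaFun (x : X) : X :=
  (x.1 + delta 0, fun n => x.2 n + if mask B n then x.1 (-(n : ℤ)) else 0)

theorem alphaFun_invol (x : X) : alphaFun B (alphaFun B x) = x := by
  refine Prod.ext ?_ ?_
  · funext i
    simp only [alphaFun, Pi.add_apply]
    rw [add_assoc, CharTwo.add_self_eq_zero, add_zero]
  · funext n
    simp only [alphaFun, Pi.add_apply]
    cases h : mask B n
    · simp
    · have hn : n ≠ 0 := fun hn => by simp [hn, mask_zero] at h
      have : delta 0 (-(n : ℤ)) = 0 := by simp [delta, hn]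
      simp [this, add_assoc, CharTwo.add_self_eq_zero]

/-- The first generator (an involution). -/
def alpha : Equiv.Perm X where
  toFun := alphaFun B
  invFun := alphaFun B
  left_inv := alphaFun_invol B
  right_inv := alphaFun_invol B

/-- The second generator (the shift). -/
def tau : Equiv.Perm X where
  toFun x := (fun i => x.1 (i - 1), x.2)
  invFun x := (fun i => x.1 (i + 1), x.2)
  left_inv x := by simp
  right_inv x := by simp

/-- The group generated by the two generators. -/
def Grp : Subgroup (Equiv.Perm X) := Subgroup.closure {alpha B, tau}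

/-- The two generators. -/
def gen (i : Fin 2) : Grp B :=
  if i = 0 then ⟨alpha B, Subgroup.subset_closure (by simp)⟩
  else ⟨tau, Subgroup.subset_closure (by simp)⟩

theorem closure_gen : Subgroup.closure (Set.range (gen B)) = ⊤ := by
  apply Subgroup.map_injective (Grp B).subtype_injective
  rw [MonoidHom.map_closure, ← MonoidHom.range_eq_map, Subgroup.range_subtype]
  show _ = Subgroup.closure _
  congr 1
  ext g
  simp [gen, Fin.exists_fin_two, eq_comm]

/-! ### Word evaluation -/

/-- Pair counting: number modulo two of pairs `i < j` in the list with difference `n`. -/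
def pairs : List ℤ → ℤ → ZMod 2
  | [], _ => 0
  | p :: L, n => (L.count (p - n) : ZMod 2) + pairs L n

theorem count_map_add (L : List ℤ) (c i : ℤ) :
    (L.map (· + c)).count (i + c) = L.count i :=
  List.count_map_of_injective L _ (add_left_injective c) i

theorem pairs_map_add (L : List ℤ) (c n : ℤ) : pairs (L.map (· + c)) n = pairs L n := by
  induction L with
  | nil => rfl
  | cons p L ih =>
    simp only [List.map_cons, pairs]
    rw [ih, show p + c - n = p - n + c by ring, count_map_add]

/-- Action of a word with position list `L` and exponent `k`. -/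
def act (L : List ℤ) (k : ℤ) (x : X) : X :=
  (fun i => x.1 (i - k) + (L.count i : ZMod 2),
   fun n => x.2 n + if mask B n then
      pairs L n + (L.map fun p => x.1 (p - n - k)).sum else 0)

/-- Effect of a letter on the data of a word. -/
def stepZ (a : Fin 2 × Bool) (d : List ℤ × ℤ) : List ℤ × ℤ :=
  if a.1 = 0 then (0 :: d.1, d.2)
  else if a.2 then (d.1.map (· + 1), d.2 + 1)
  else (d.1.map (· + (-1)), d.2 + (-1))

/-- Data of a word. -/
def dataZ (w : List (Fin 2 × Bool)) : List ℤ × ℤ := w.foldr stepZ ([], 0)

theorem alpha_act (L : List ℤ) (k : ℤ) (x : X) :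
    alpha B (act B L k x) = act B (0 :: L) k x := by
  refine Prod.ext ?_ ?_
  · funext i
    show x.1 (i - k) + _ + delta 0 i = _
    simp only [act, delta, List.count_cons]
    by_cases h : i = 0
    · simp [h, add_assoc]
    · have h' : ¬ ((0 : ℤ) == i) = true := by simpa using Ne.symm h
      simp [h, h']
  · funext n
    show x.2 n + _ + _ = _
    simp only [act, pairs, List.map_cons, List.sum_cons, zero_sub]
    cases mask B n
    · simp
    · simp only [if_true]; abel

theorem tau_act (L : List ℤ) (k : ℤ) (x : X) :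
    tau (act B L k x) = act B (L.map (· + 1)) (k + 1) x := by
  refine Prod.ext ?_ ?_
  · funext i
    show x.1 (i - 1 - k) + (L.count (i - 1) : ZMod 2) = _
    simp only [act]
    rw [← count_map_add L 1 (i - 1), sub_add_cancel, sub_sub, add_comm 1 k]
  · funext n
    show x.2 n + _ = _
    simp only [act]
    rw [pairs_map_add, List.map_map]
    congr! 4
    refine List.map_congr_left fun p _ => ?_
    simp only [Function.comp]
    exact congrArg x.1 (by omega)

theorem tau_inv_act (L : List ℤ) (k : ℤ) (x : X) :
    tau.symm (act B L k x) = act B (L.map (· + (-1))) (k + (-1)) x := by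
  rw [Equiv.symm_apply_eq, tau_act, List.map_map]
  simp [Function.comp_def]

theorem lift_apply (w : List (Fin 2 × Bool)) (x : X) :
    ((FreeGroup.lift (gen B) (FreeGroup.mk w) : Grp B) : Equiv.Perm X) x
      = act B (dataZ w).1 (dataZ w).2 x := by
  induction w with
  | nil =>
    rw [← FreeGroup.one_eq_mk, map_one]
    show x = _
    simp [act, dataZ, pairs]
  | cons a w ih =>
    have hd : dataZ (a :: w) = stepZ a (dataZ w) := rfl
    have e : FreeGroup.mk (a :: w) = FreeGroup.mk [a] * FreeGroup.mk w := by
      rw [FreeGroup.mul_mk, List.singleton_append]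
    rw [e, map_mul, Subgroup.coe_mul, Equiv.Perm.mul_apply, ih, hd]
    obtain ⟨j, b⟩ := a
    fin_cases j <;> cases b <;>
      simp only [stepZ, FreeGroup.lift_mk, List.map_cons, List.map_nil, List.prod_cons,
        List.prod_nil, mul_one, cond_true, cond_false, gen, Fin.zero_eta, Fin.mk_one,
        if_true, if_false, Subgroup.coe_inv, Fin.isValue, one_ne_zero, if_neg, Bool.false_eq_true]
    · exact alpha_act B _ _ _
    · exact alpha_act B _ _ _
    · exact tau_inv_act B _ _ _
    · exact tau_act B _ _ _

theorem lift_eq_one_iff (w : List (Fin 2 × Bool)) :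
    FreeGroup.lift (gen B) (FreeGroup.mk w) = 1 ↔
      (dataZ w).2 = 0 ∧ (∀ i, ((dataZ w).1.count i : ZMod 2) = 0) ∧
        ∀ n : ℕ, mask B n = true → pairs (dataZ w).1 n = 0 := by
  set L := (dataZ w).1
  set k := (dataZ w).2
  constructor
  · intro h
    have hx : ∀ x : X, act B L k x = x := fun x => by
      rw [← lift_apply, h]; rfl
    have hc : ∀ i, (L.count i : ZMod 2) = 0 := fun i => by
      simpa [act] using congrArg (fun y : X => y.1 i) (hx (0, 0))
    refine ⟨?_, hc, fun n hn => ?_⟩
    · by_contra hk
      have := congrArg (fun y : X => y.1 k) (hx (delta 0, 0))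
      simp [act, hc, delta, hk] at this
    · simpa [act, hn] using congrArg (fun y : X => y.2 n) (hx (0, 0))
  · rintro ⟨hk, hc, hp⟩
    apply Subtype.ext
    apply Equiv.ext
    intro x
    rw [lift_apply]
    show act B L k x = x
    refine Prod.ext ?_ ?_
    · funext i; simp [act, hk, hc]
    · funext n
      cases hn : mask B n
      · simp [act, hn]
      · have : (L.map fun p => x.1 (p - n - k)).sum = 0 := by
          rw [Finset.sum_list_map_count]
          refine Finset.sum_eq_zero fun i _ => ?_
          rw [nsmul_eq_mul, hc, zero_mul]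
        simp [act, hn, hp n hn, this]

/-- The word `a tⁿ a t⁻ⁿ a tⁿ a t⁻ⁿ`. -/
def testWord (n : ℕ) : List (Fin 2 × Bool) :=
  let v : List (Fin 2 × Bool) :=
    List.replicate n (1, true) ++ [(0, true)] ++ List.replicate n (1, false)
  [(0, true)] ++ v ++ [(0, true)] ++ v

theorem dataZ_append_replicate (b : Bool) (n : ℕ) (w : List (Fin 2 × Bool)) :
    dataZ (List.replicate n (1, b) ++ w) =
      ((dataZ w).1.map (· + (if b then (n : ℤ) else -n)),
        (dataZ w).2 + (if b then (n : ℤ) else -n)) := by
  induction n with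
  | zero => cases b <;> simp
  | succ n ih =>
    rw [List.replicate_succ, List.cons_append]
    show stepZ (1, b) (dataZ (List.replicate n (1, b) ++ w)) = _
    rw [ih]
    cases b <;> simp [stepZ, List.map_map, Function.comp_def, add_assoc, neg_add_rev, add_comm,
      add_left_comm]

theorem dataZ_testWord (n : ℕ) :
    dataZ (testWord n) = ([0, (n : ℤ), 0, (n : ℤ)], 0) := by
  have hc : ∀ w, dataZ ((0, true) :: w) = (0 :: (dataZ w).1, (dataZ w).2) := fun w => rfl
  have h0 : dataZ [] = ([], 0) := rfl
  simp only [testWord, List.append_assoc, List.singleton_append, List.cons_append,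
    List.nil_append]
  rw [hc, dataZ_append_replicate, hc, dataZ_append_replicate, hc, dataZ_append_replicate, hc,
    ← List.append_nil (List.replicate n ((1 : Fin 2), false)), dataZ_append_replicate, h0]
  simp

theorem testWord_iff (n : ℕ) :
    FreeGroup.lift (gen B) (FreeGroup.mk (testWord (n + 1))) = 1 ↔ B n = false := by
  rw [lift_eq_one_iff, dataZ_testWord]
  have hN : ((n + 1 : ℕ) : ℤ) ≠ 0 := by omega
  have key : ∀ m : ℕ, mask B m = true →
      pairs [0, ((n + 1 : ℕ) : ℤ), 0, ((n + 1 : ℕ) : ℤ)] m = if m = n + 1 then 1 else 0 := by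
    intro m hm
    have hm0 : m ≠ 0 := fun h => by simp [h, mask_zero] at hm
    simp only [pairs, List.count_cons, List.count_nil, beq_iff_eq]
    split_ifs <;> first | rfl | (exfalso; omega) | decide
  constructor
  · rintro ⟨-, -, h⟩
    by_contra hb
    have hm : mask B (n + 1) = true := by rw [mask_succ]; simpa using hb
    have := h (n + 1) hm
    rw [key _ hm, if_pos rfl] at this
    exact one_ne_zero this
  · intro hb
    refine ⟨rfl, fun i => ?_, fun m hm => ?_⟩
    · simp only [List.count_cons, List.count_nil, beq_iff_eq]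
      split_ifs <;> first | rfl | (exfalso; omega) | decide
    · rw [key m hm, if_neg]
      rintro rfl
      rw [mask_succ, hb] at hm
      exact Bool.false_ne_true hm

/-! ### Solvability -/

/-- Maps translating the first coordinate by a constant and the second by a function of the first. -/
def triK : Subgroup (Equiv.Perm X) where
  carrier := {g | ∃ (e : ℤ → ZMod 2) (l : (ℤ → ZMod 2) → ℕ → ZMod 2),
    ∀ x : X, g x = (x.1 + e, x.2 + l x.1)}
  one_mem' := ⟨0, 0, fun x => by simp⟩
  mul_mem' := by
    rintro g h ⟨e, l, hg⟩ ⟨e', l', hh⟩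
    refine ⟨e' + e, fun f => l' f + l (f + e'), fun x => ?_⟩
    rw [Equiv.Perm.mul_apply, hh, hg]
    simp [add_assoc]
  inv_mem' := by
    rintro g ⟨e, l, hg⟩
    refine ⟨-e, fun f => -l (f + -e), fun x => ?_⟩
    apply g.injective
    rw [← Equiv.Perm.mul_apply, mul_inv_cancel, Equiv.Perm.one_apply, hg]
    simp [add_assoc]

/-- Maps translating the second coordinate by a function of the first. -/
def triT : Subgroup (Equiv.Perm X) where
  carrier := {g | ∃ l : (ℤ → ZMod 2) → ℕ → ZMod 2, ∀ x : X, g x = (x.1, x.2 + l x.1)}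
  one_mem' := ⟨0, fun x => by simp⟩
  mul_mem' := by
    rintro g h ⟨l, hg⟩ ⟨l', hh⟩
    refine ⟨fun f => l' f + l f, fun x => ?_⟩
    rw [Equiv.Perm.mul_apply, hh, hg]
    simp [add_assoc]
  inv_mem' := by
    rintro g ⟨l, hg⟩
    refine ⟨fun f => -l f, fun x => ?_⟩
    apply g.injective
    rw [← Equiv.Perm.mul_apply, mul_inv_cancel, Equiv.Perm.one_apply, hg]
    simp [add_assoc]

theorem triK_of_data (w : List (Fin 2 × Bool)) (hk : (dataZ w).2 = 0) :
    ((FreeGroup.lift (gen B) (FreeGroup.mk w) : Grp B) : Equiv.Perm X) ∈ triK := by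
  refine ⟨fun i => ((dataZ w).1.count i : ZMod 2), fun f n => if mask B n then
      pairs (dataZ w).1 n + ((dataZ w).1.map fun p => f (p - n)).sum else 0, fun x => ?_⟩
  rw [lift_apply, hk]
  simp only [act, sub_zero]
  rfl

theorem exp_append (u v : List (Fin 2 × Bool)) :
    (dataZ (u ++ v)).2 = (dataZ u).2 + (dataZ v).2 := by
  induction u with
  | nil => simp [dataZ]
  | cons a u ih =>
    show (stepZ a (dataZ (u ++ v))).2 = (stepZ a (dataZ u)).2 + _
    unfold stepZ
    split_ifs <;> simp [ih] <;> ring

theorem exp_invRev (u : List (Fin 2 × Bool)) :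
    (dataZ (FreeGroup.invRev u)).2 = -(dataZ u).2 := by
  induction u with
  | nil => rfl
  | cons a u ih =>
    have hi : FreeGroup.invRev (a :: u) = FreeGroup.invRev u ++ [(a.1, !a.2)] := by
      simp [FreeGroup.invRev]
    rw [hi, exp_append, ih]
    show _ + (stepZ (a.1, !a.2) ([], 0)).2 = -(stepZ a (dataZ u)).2
    obtain ⟨j, b⟩ := a
    cases b <;> simp [stepZ] <;> split_ifs <;> simp [add_comm]

theorem exists_word (g : Grp B) :
    ∃ w, FreeGroup.lift (gen B) (FreeGroup.mk w) = g := by
  have : g ∈ (FreeGroup.lift (gen B)).range := by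
    rw [FreeGroup.range_lift_eq_closure, closure_gen]; trivial
  obtain ⟨x, hx⟩ := this
  exact ⟨x.toWord, by rw [FreeGroup.mk_toWord, hx]⟩

open scoped commutatorElement in
theorem derived_one : derivedSeries (Grp B) 1 ≤ triK.subgroupOf (Grp B) := by
  rw [derivedSeries_succ, derivedSeries_zero, Subgroup.commutator_le]
  intro g _ h _
  obtain ⟨u, rfl⟩ := exists_word B g
  obtain ⟨v, rfl⟩ := exists_word B h
  rw [← map_commutatorElement, commutatorElement_def, FreeGroup.inv_mk, FreeGroup.inv_mk,
    FreeGroup.mul_mk, FreeGroup.mul_mk, FreeGroup.mul_mk, Subgroup.mem_subgroupOf]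
  apply triK_of_data
  rw [exp_append, exp_append, exp_append, exp_invRev, exp_invRev]
  ring

open scoped commutatorElement in
theorem derived_two : derivedSeries (Grp B) 2 ≤ triT.subgroupOf (Grp B) := by
  rw [derivedSeries_succ]
  refine (Subgroup.commutator_mono (derived_one B) (derived_one B)).trans ?_
  rw [Subgroup.commutator_le]
  rintro g ⟨e, l, hg⟩ h ⟨e', l', hh⟩
  have hgi : ∀ x : X, (g : Equiv.Perm X).symm x = (x.1 + -e, x.2 + -l (x.1 + -e)) := fun x => by
    rw [Equiv.symm_apply_eq]; simp only [Subgroup.coe_subtype] at hg; rw [hg]; simp [add_assoc]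
  have hhi : ∀ x : X, (h : Equiv.Perm X).symm x = (x.1 + -e', x.2 + -l' (x.1 + -e')) :=
    fun x => by rw [Equiv.symm_apply_eq]; simp only [Subgroup.coe_subtype] at hh; rw [hh]; simp [add_assoc]
  refine ⟨fun f => -l' (f + -e') + -l (f + -e' + -e) + l' (f + -e' + -e) +
      l (f + -e' + -e + e'), fun x => ?_⟩
  show (g : Equiv.Perm X) ((h : Equiv.Perm X) ((g : Equiv.Perm X).symm
    ((h : Equiv.Perm X).symm x))) = _
  simp only [Subgroup.coe_subtype] at hg hh
  rw [hhi, hgi, hh, hg]
  refine Prod.ext ?_ ?_ <;> simp [add_assoc]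

open scoped commutatorElement in
theorem derived_three : derivedSeries (Grp B) 3 = ⊥ := by
  rw [derivedSeries_succ]
  refine eq_bot_iff.2 ((Subgroup.commutator_mono (derived_two B) (derived_two B)).trans ?_)
  rw [Subgroup.commutator_le]
  rintro g ⟨l, hg⟩ h ⟨l', hh⟩
  rw [Subgroup.mem_bot, commutatorElement_eq_one_iff_mul_comm]
  apply Subtype.ext
  apply Equiv.ext
  intro x
  show (g : Equiv.Perm X) ((h : Equiv.Perm X) x) = (h : Equiv.Perm X) ((g : Equiv.Perm X) x)
  simp only [Subgroup.coe_subtype] at hg hh
  rw [hh, hg, hg, hh]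
  simp [add_comm, add_left_comm]

end Vale.Agent.P193
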